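import Vale.Agent.P284.H661.T3.Weak

/-! # P284 (helper661), T3: vertical escape for sections of representations without `K`-invariant
vectors -/

open scoped Topology ENNReal ContDiff InnerProductSpace
open Filter Set Metric MeasureTheory

noncomputable section

namespace Vale.Agent.P284.H661.T3

open Vale.Agent.P272.K Vale.Agent.P284.H248 Vale.Agent.P284.H894 Vale.Agent.P284.H894.V
  Vale.Agent.P284.H551

section
variable {n q : ℕ} {Γ : Type} [Group Γ] {C : Coc n Γ} {F : Γ → C.I → Cm n → Cm q} {Kk : Set Γ}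
  {T : Set (Cm q)} {W : Type} [NormedAddCommGroup W] [InnerProductSpace ℝ W]
  {π : Γ →* (W ≃ₗᵢ[ℝ] W)} {m : ℕ → C.I → Cm n → ℝ} {u : ℕ → Γ → C.I → Cm n → W}
  {e : ℕ → C.I → Cm n → ℝ}

variable (C F T π m u e) in
/-- a sequence of equivariant functions, bounded in `L²` for the densities `m j`, with vertical energy
tending to `0` -/
structure WSeq : Prop where
  smooth : ∀ j γ a, ∀ z ∈ C.Ω a, ContDiffAt ℝ ∞ (u j γ a) z
  compat : ∀ j γ a b, ∀ z ∈ C.O a b, u j γ a z = u j (γ * C.κ a b z) b (C.T a b z)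
  equi : ∀ j g γ a, ∀ z ∈ C.Ω a, u j (g * γ) a z = π g (u j γ a z)
  m_cont : ∀ j a, ContinuousOn (m j a) (C.Ω a)
  m_nonneg : ∀ j a, ∀ z ∈ C.Ω a, 0 ≤ m j a z
  m_low : ∀ γ a, ∀ z ∈ C.V a, F γ a z ∉ T → ∃ U ∈ 𝓝 z, ∃ c : ℝ, 0 < c ∧ ∀ j, ∀ z' ∈ U, c ≤ m j a z'
  m_up : ∃ M : ℝ, ∀ j a, ∀ z ∈ C.V a, m j a z ≤ M
  bdd : ∃ B : ℝ, ∀ j a, ∫ z in C.V a, ‖u j 1 a z‖ ^ 2 * m j a z ≤ B
  e_cont : ∀ j a, ContinuousOn (e j a) (C.Ω a)
  e_nonneg : ∀ j a, ∀ z ∈ C.Ω a, 0 ≤ e j a z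
  e_le : ∀ γ a, ∀ z ∈ C.V a, F γ a z ∉ T → ∃ U ∈ 𝓝 z, ∃ c : ℝ, ∀ j, ∀ z' ∈ U, ∀ v : Cm n,
    fderiv ℂ (F γ a) z' v = 0 → ‖fderiv ℝ (u j 1 a) z' v‖ ^ 2 ≤ c * e j a z' * ‖v‖ ^ 2
  e_lim : ∀ a, Tendsto (fun j => ∫ z in C.V a, e j a z) atTop (𝓝 0)

/-- the derivative of a translate -/
theorem WSeq.fderiv_eq (hS : WSeq C F T π m u e) (j : ℕ) (γ : Γ) {a : C.I} {z : Cm n}
    (hz : z ∈ C.Ω a) (v : Cm n) : fderiv ℝ (u j γ a) z v = π γ (fderiv ℝ (u j 1 a) z v) := by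
  have h1 : u j γ a =ᶠ[𝓝 z] fun y => π γ (u j 1 a y) := by
    filter_upwards [(Ω_open a).mem_nhds hz] with y hy
    have := hS.equi j γ 1 a y hy
    rwa [mul_one] at this
  rw [h1.fderiv_eq]
  have h2 : DifferentiableAt ℝ (u j 1 a) z := (hS.smooth j 1 a z hz).differentiableAt (by simp)
  have h3 : fderiv ℝ (fun y => π γ (u j 1 a y)) z =
      ((π γ).toContinuousLinearEquiv : W →L[ℝ] W).comp (fderiv ℝ (u j 1 a) z) :=
    (((π γ).toContinuousLinearEquiv : W →L[ℝ] W).hasFDerivAt.comp z h2.hasFDerivAt).fderiv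
  rw [h3]; rfl

/-- the components -/
theorem WSeq.comp (hS : WSeq C F T π m u e) (η : W) :
    VSq C F T (fun j γ a z => ⟪u j γ a z, η⟫_ℝ) (fun j _ a z => ‖η‖ ^ 2 * e j a z) where
  smooth j γ a z hz := (hS.smooth j γ a z hz).inner ℝ contDiffAt_const
  compat j γ a b z hz := by rw [hS.compat j γ a b z hz]
  e_cont j γ a := continuousOn_const.mul (hS.e_cont j a)
  e_nonneg j γ a z hz := mul_nonneg (sq_nonneg _) (hS.e_nonneg j a z hz)
  e_le γ a z hz hzT := by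
    obtain ⟨U, hU, c, hc⟩ := hS.e_le γ a z hz hzT
    refine ⟨U ∩ C.Ω a, inter_mem hU ((Ω_open a).mem_nhds (V_sub a hz)), c, fun j z' hz' v hv => ?_⟩
    have h1 := hc j z' hz'.1 v hv
    have h2 : DifferentiableAt ℝ (u j γ a) z' :=
      (hS.smooth j γ a z' hz'.2).differentiableAt (by simp)
    have h3 : fderiv ℝ (fun y => ⟪u j γ a y, η⟫_ℝ) z' v = ⟪fderiv ℝ (u j γ a) z' v, η⟫_ℝ := by
      rw [fderiv_inner_apply ℝ h2 (differentiableAt_const η)]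
      simp
    show (fderiv ℝ (fun y => ⟪u j γ a y, η⟫_ℝ) z' v) ^ 2 ≤ _
    rw [h3, hS.fderiv_eq j γ hz'.2]
    have h4 := abs_real_inner_le_norm (π γ (fderiv ℝ (u j 1 a) z' v)) η
    rw [LinearIsometryEquiv.norm_map] at h4
    have h5 : ⟪π γ (fderiv ℝ (u j 1 a) z' v), η⟫_ℝ ^ 2 ≤
        (‖fderiv ℝ (u j 1 a) z' v‖ * ‖η‖) ^ 2 := by
      rw [← sq_abs]
      exact pow_le_pow_left₀ (abs_nonneg _) h4 2
    refine h5.trans ?_
    calc (‖fderiv ℝ (u j 1 a) z' v‖ * ‖η‖) ^ 2 = ‖fderiv ℝ (u j 1 a) z' v‖ ^ 2 * ‖η‖ ^ 2 := by ring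
      _ ≤ (c * e j a z' * ‖v‖ ^ 2) * ‖η‖ ^ 2 := mul_le_mul_of_nonneg_right h1 (sq_nonneg _)
      _ = _ := by ring
  e_lim γ a := by
    have h1 := (hS.e_lim a).const_mul (‖η‖ ^ 2)
    rw [mul_zero] at h1
    refine h1.congr fun j => ?_
    rw [integral_const_mul]

/-- lower bound of the densities on compact sets -/
theorem WSeq.low_Q (hS : WSeq C F T π m u e) {γ : Γ} {a : C.I} {Q : Set (Cm n)} (hQ : IsCompact Q)
    (hQV : Q ⊆ C.V a) (hQT : ∀ z ∈ Q, F γ a z ∉ T) :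
    ∃ c : ℝ, 0 < c ∧ ∀ j, ∀ z ∈ Q, c ≤ m j a z := by
  refine hQ.induction_on (p := fun s => ∃ c : ℝ, 0 < c ∧ ∀ j, ∀ z ∈ s, c ≤ m j a z) ?_ ?_ ?_ ?_
  · exact ⟨1, one_pos, by simp⟩
  · rintro s t hst ⟨c, hc, h1⟩
    exact ⟨c, hc, fun j z hz => h1 j z (hst hz)⟩
  · rintro s t ⟨c, hc, h1⟩ ⟨c', hc', h2⟩
    refine ⟨min c c', lt_min hc hc', fun j z hz => ?_⟩
    rcases hz with hz | hz
    · exact (min_le_left _ _).trans (h1 j z hz)
    · exact (min_le_right _ _).trans (h2 j z hz)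
  · intro z hz
    obtain ⟨U, hU, c, hc, h1⟩ := hS.m_low γ a z (hQV hz) (hQT z hz)
    exact ⟨U, mem_nhdsWithin_of_mem_nhds hU, c, hc, h1⟩

theorem WSeq.cont (hS : WSeq C F T π m u e) (j : ℕ) (γ : Γ) (a : C.I) :
    ContinuousOn (u j γ a) (C.Ω a) := fun z hz =>
  (hS.smooth j γ a z hz).continuousAt.continuousWithinAt

/-- components along `π k⁻¹ η - η` tend to `0` -/
theorem WSeq.lim_diff (hS : WSeq C F T π m u e) (hT : TMap C F) (hC : VConn C F Kk T) {a : C.I}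
    {Q : Set (Cm n)} (hQ : IsCompact Q) (hQV : Q ⊆ C.V a) (hQT : ∀ z ∈ Q, F 1 a z ∉ T) {k : Γ}
    (hk : k ∈ Kk) (η : W) :
    Tendsto (fun j => ∫ z in Q, ⟪u j 1 a z, π k⁻¹ η - η⟫_ℝ ^ 2) atTop (𝓝 0) := by
  have h1 := near_k_Q hT hC (hS.comp η) hQ hQV hQT hk
  have h2 : Tendsto (fun j => (∫⁻ z' in Q, ENNReal.ofReal
      ((⟪u j (k * 1) a z', η⟫_ℝ - ⟪u j 1 a z', η⟫_ℝ) ^ 2)).toReal) atTop (𝓝 0) := by
    have := (ENNReal.tendsto_toReal ENNReal.zero_ne_top).comp h1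
    rw [ENNReal.toReal_zero] at this
    exact this
  refine h2.congr fun j => ?_
  have hcQ : Q ⊆ C.Ω a := hQV.trans (V_sub a)
  rw [← integral_eq_lintegral_of_nonneg_ae (Eventually.of_forall fun z => sq_nonneg _)]
  · refine setIntegral_congr_fun hQ.measurableSet fun z hz => ?_
    show (⟪u j (k * 1) a z, η⟫_ℝ - ⟪u j 1 a z, η⟫_ℝ) ^ 2 = _
    have h3 : ⟪π k (u j 1 a z), η⟫_ℝ = ⟪u j 1 a z, π k⁻¹ η⟫_ℝ := by
      have h4 := (π k⁻¹).inner_map_map (π k (u j 1 a z)) η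
      rw [← h4]
      congr 1
      have : π k⁻¹ (π k (u j 1 a z)) = (π k⁻¹ * π k) (u j 1 a z) := rfl
      rw [this, ← map_mul, inv_mul_cancel, map_one]; rfl
    rw [hS.equi j k 1 a z (hcQ hz), h3, inner_sub_right]
  · refine (ContinuousOn.integrableOn_compact hQ ?_).aestronglyMeasurable
    exact ((((hS.cont j (k * 1) a).mono hcQ).inner (𝕜 := ℝ) continuousOn_const).sub
      (((hS.cont j 1 a).mono hcQ).inner (𝕜 := ℝ) continuousOn_const)).pow 2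

/-- no invariant vectors: all components tend to `0` -/
theorem WSeq.lim_all [CompleteSpace W] (hS : WSeq C F T π m u e) (hT : TMap C F)
    (hC : VConn C F Kk T)
    (hinv : ∀ x : W, (∀ k ∈ Kk, π k x = x) → x = 0) {a : C.I}
    {Q : Set (Cm n)} (hQ : IsCompact Q) (hQV : Q ⊆ C.V a) (hQT : ∀ z ∈ Q, F 1 a z ∉ T) (ζ : W) :
    Tendsto (fun j => ∫ z in Q, ⟪u j 1 a z, ζ⟫_ℝ ^ 2) atTop (𝓝 0) := by
  have hcQ : Q ⊆ C.Ω a := hQV.trans (V_sub a)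
  have i1 : ∀ j (ζ : W), IntegrableOn (fun z => ⟪u j 1 a z, ζ⟫_ℝ ^ 2) Q := fun j ζ =>
    ContinuousOn.integrableOn_compact hQ
      ((((hS.cont j 1 a).mono hcQ).inner (𝕜 := ℝ) continuousOn_const).pow 2)
  have i2 : ∀ j, IntegrableOn (fun z => ‖u j 1 a z‖ ^ 2) Q := fun j =>
    ContinuousOn.integrableOn_compact hQ (((hS.cont j 1 a).mono hcQ).norm.pow 2)
  obtain ⟨c, hc, hcl⟩ := hS.low_Q hQ hQV hQT
  obtain ⟨B, hB⟩ := hS.bdd
  -- uniform bound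
  have hbd : ∀ j, ∫ z in Q, ‖u j 1 a z‖ ^ 2 ≤ B / c := by
    intro j
    rw [le_div_iff₀ hc, ← integral_mul_const]
    have cm : ContinuousOn (fun z => ‖u j 1 a z‖ ^ 2 * m j a z) (closedBall (C.c a) (3 * C.r a)) :=
      (((hS.cont j 1 a).mono (cball_sub a)).norm.pow 2).mul ((hS.m_cont j a).mono (cball_sub a))
    have i3 : IntegrableOn (fun z => ‖u j 1 a z‖ ^ 2 * m j a z) (C.V a) :=
      (cm.integrableOn_compact (isCompact_closedBall _ _)).mono_set ball_subset_closedBall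
    have h1 : ∫ z in Q, ‖u j 1 a z‖ ^ 2 * c ≤ ∫ z in Q, ‖u j 1 a z‖ ^ 2 * m j a z :=
      setIntegral_mono_on ((i2 j).mul_const _) (i3.mono_set hQV) hQ.measurableSet
        fun z hz => mul_le_mul_of_nonneg_left (hcl j z hz) (sq_nonneg _)
    refine h1.trans ((?_ : _ ≤ _).trans (hB j a))
    refine setIntegral_mono_set i3 ?_ (LE.le.eventuallyLE hQV)
    filter_upwards [ae_restrict_mem (V_open a).measurableSet] with z hz
    exact mul_nonneg (sq_nonneg _) (hS.m_nonneg j a z (V_sub a hz))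
  let P : Submodule ℝ W :=
    { carrier := {ζ | Tendsto (fun j => ∫ z in Q, ⟪u j 1 a z, ζ⟫_ℝ ^ 2) atTop (𝓝 0)}
      add_mem' := by
        intro x y hx hy
        have h1 := (hx.const_mul 2).add (hy.const_mul 2)
        simp only [mul_zero, add_zero] at h1
        refine squeeze_zero (fun j => integral_nonneg fun z => sq_nonneg _) (fun j => ?_) h1
        rw [← integral_const_mul, ← integral_const_mul,
          ← integral_add ((i1 j x).const_mul 2) ((i1 j y).const_mul 2)]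
        refine integral_mono (i1 j (x + y)) (((i1 j x).const_mul 2).add ((i1 j y).const_mul 2))
          fun z => ?_
        show ⟪u j 1 a z, x + y⟫_ℝ ^ 2 ≤ 2 * ⟪u j 1 a z, x⟫_ℝ ^ 2 + 2 * ⟪u j 1 a z, y⟫_ℝ ^ 2
        rw [inner_add_right]
        nlinarith [sq_nonneg (⟪u j 1 a z, x⟫_ℝ - ⟪u j 1 a z, y⟫_ℝ)]
      zero_mem' := by
        show Tendsto _ _ _
        simp
      smul_mem' := by
        intro r x hx
        have h1 := hx.const_mul (r ^ 2)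
        rw [mul_zero] at h1
        refine h1.congr fun j => ?_
        rw [← integral_const_mul]
        refine integral_congr_ae (Eventually.of_forall fun z => ?_)
        show r ^ 2 * ⟪u j 1 a z, x⟫_ℝ ^ 2 = ⟪u j 1 a z, r • x⟫_ℝ ^ 2
        rw [inner_smul_right]; ring }
  have hP : P.topologicalClosure = ⊤ := by
    rw [Submodule.topologicalClosure_eq_top_iff, Submodule.eq_bot_iff]
    intro x hx
    refine hinv x fun k hk => ?_
    rw [Submodule.mem_orthogonal] at hx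
    have h1 : ∀ η : W, ⟪π k⁻¹ η - η, x⟫_ℝ = 0 := fun η => hx _ (hS.lim_diff hT hC hQ hQV hQT hk η)
    have h2 : ∀ η : W, ⟪η, π k x - x⟫_ℝ = 0 := by
      intro η
      have h3 := h1 η
      have h4 : ⟪π k⁻¹ η, x⟫_ℝ = ⟪η, π k x⟫_ℝ := by
        have h5 := (π k).inner_map_map (π k⁻¹ η) x
        rw [← h5]
        congr 1
        have : π k (π k⁻¹ η) = (π k * π k⁻¹) η := rfl
        rw [this, ← map_mul, mul_inv_cancel, map_one]; rfl
      rw [inner_sub_left, h4] at h3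
      rw [inner_sub_right]; exact h3
    exact sub_eq_zero.1 (inner_self_eq_zero.1 (h2 (π k x - x)))
  have hmem : ζ ∈ closure (P : Set W) := by
    rw [← Submodule.topologicalClosure_coe, hP]; trivial
  rw [Metric.tendsto_atTop]
  intro ε hε
  have hBc : 0 ≤ B / c := (integral_nonneg fun z => sq_nonneg _).trans (hbd 0)
  obtain ⟨ζ', hζ', hd⟩ := Metric.mem_closure_iff.1 hmem (Real.sqrt (ε / (4 * (B / c + 1))))
    (Real.sqrt_pos.2 (by positivity))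
  have hd2 : ‖ζ - ζ'‖ ^ 2 ≤ ε / (4 * (B / c + 1)) := by
    rw [← dist_eq_norm]
    calc dist ζ ζ' ^ 2 ≤ (Real.sqrt (ε / (4 * (B / c + 1)))) ^ 2 :=
          pow_le_pow_left₀ dist_nonneg hd.le 2
      _ = _ := Real.sq_sqrt (by positivity)
  have hζ'' : Tendsto (fun j => ∫ z in Q, ⟪u j 1 a z, ζ'⟫_ℝ ^ 2) atTop (𝓝 0) := hζ'
  obtain ⟨N, hN⟩ := (Metric.tendsto_atTop.1 hζ'') (ε / 4) (by positivity)
  refine ⟨N, fun j hj => ?_⟩
  have h1 := hN j hj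
  rw [Real.dist_eq, sub_zero] at h1 ⊢
  have h2 := (le_abs_self _).trans h1.le
  rw [abs_of_nonneg (integral_nonneg fun z => sq_nonneg _)]
  have h3 : ∫ z in Q, ⟪u j 1 a z, ζ⟫_ℝ ^ 2 ≤
      2 * (∫ z in Q, ⟪u j 1 a z, ζ'⟫_ℝ ^ 2) +
        2 * (ε / (4 * (B / c + 1))) * ∫ z in Q, ‖u j 1 a z‖ ^ 2 := by
    rw [← integral_const_mul, ← integral_const_mul,
      ← integral_add ((i1 j ζ').const_mul 2) ((i2 j).const_mul _)]
    refine integral_mono (i1 j ζ) (((i1 j ζ').const_mul 2).add ((i2 j).const_mul _)) fun z => ?_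
    show ⟪u j 1 a z, ζ⟫_ℝ ^ 2 ≤ 2 * ⟪u j 1 a z, ζ'⟫_ℝ ^ 2 +
      2 * (ε / (4 * (B / c + 1))) * ‖u j 1 a z‖ ^ 2
    have h4 : ⟪u j 1 a z, ζ⟫_ℝ = ⟪u j 1 a z, ζ'⟫_ℝ + ⟪u j 1 a z, ζ - ζ'⟫_ℝ := by
      rw [← inner_add_right, add_sub_cancel]
    have h5 : ⟪u j 1 a z, ζ - ζ'⟫_ℝ ^ 2 ≤ (ε / (4 * (B / c + 1))) * ‖u j 1 a z‖ ^ 2 := by
      have h6 := abs_real_inner_le_norm (u j 1 a z) (ζ - ζ')
      calc ⟪u j 1 a z, ζ - ζ'⟫_ℝ ^ 2 = |⟪u j 1 a z, ζ - ζ'⟫_ℝ| ^ 2 := (sq_abs _).symm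
        _ ≤ (‖u j 1 a z‖ * ‖ζ - ζ'‖) ^ 2 := pow_le_pow_left₀ (abs_nonneg _) h6 2
        _ = ‖u j 1 a z‖ ^ 2 * ‖ζ - ζ'‖ ^ 2 := by ring
        _ ≤ ‖u j 1 a z‖ ^ 2 * (ε / (4 * (B / c + 1))) :=
          mul_le_mul_of_nonneg_left hd2 (sq_nonneg _)
        _ = _ := mul_comm _ _
    rw [h4]
    nlinarith [sq_nonneg (⟪u j 1 a z, ζ'⟫_ℝ - ⟪u j 1 a z, ζ - ζ'⟫_ℝ)]
  have h4 : 2 * (ε / (4 * (B / c + 1))) * ∫ z in Q, ‖u j 1 a z‖ ^ 2 < ε / 2 := by
    have h5 : 2 * (ε / (4 * (B / c + 1))) * ∫ z in Q, ‖u j 1 a z‖ ^ 2 ≤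
        2 * (ε / (4 * (B / c + 1))) * (B / c) := mul_le_mul_of_nonneg_left (hbd j) (by positivity)
    have h6 : 2 * (ε / (4 * (B / c + 1))) * (B / c + 1) = ε / 2 := by
      have h8 : B / c + 1 ≠ 0 := by positivity
      generalize B / c + 1 = x at h8
      field_simp
      ring
    have h7 : 0 < 2 * (ε / (4 * (B / c + 1))) := by positivity
    nlinarith
  linarith

/-- **Escape**, generic form -/
theorem WSeq.weak [CompleteSpace W] (hS : WSeq C F T π m u e) (hT : TMap C F)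
    (hC : VConn C F Kk T) (hinv : ∀ x : W, (∀ k ∈ Kk, π k x = x) → x = 0) (a : C.I)
    {φ : Cm n → W} (hφ : ContinuousOn φ (closedBall (C.c a) (3 * C.r a))) :
    Tendsto (fun j => ∫ z in C.V a, ⟪u j 1 a z, φ z⟫_ℝ * m j a z) atTop (𝓝 0) := by
  obtain ⟨M, hM⟩ := hS.m_up
  obtain ⟨B, hB⟩ := hS.bdd
  refine weak_of (V_open a).measurableSet (isCompact_closedBall (C.c a) (3 * C.r a))
    ball_subset_closedBall (fun j => (hS.m_cont j a).mono (cball_sub a))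
    (fun j => (hS.cont j 1 a).mono (cball_sub a)) hφ
    (fun j z hz => hS.m_nonneg j a z (V_sub a hz)) (fun j z hz => hM j a z hz)
    (fun j => hB j a) fun δ hδ => ?_
  set U : Set (Cm n) := {z | z ∈ C.V a ∧ F 1 a z ∉ T} with hU
  have hUo : IsOpen U := by
    have h1 : ContinuousOn (F 1 a) (C.V a) := (hT.holo 1 a).continuousOn.mono (V_sub a)
    exact h1.isOpen_inter_preimage (V_open a) hC.closed.isOpen_compl
  have hUV : U ⊆ C.V a := fun z hz => hz.1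
  have hVt : volume (C.V a) ≠ ⊤ := measure_ball_lt_top.ne
  obtain ⟨Q, hQU, hQ, hQd⟩ := hUo.measurableSet.exists_isCompact_sdiff_lt
    ((measure_mono hUV).trans_lt hVt.lt_top).ne (ENNReal.ofReal_pos.2 hδ).ne' (μ := volume)
  have hQV : Q ⊆ C.V a := hQU.trans hUV
  have hQT : ∀ z ∈ Q, F 1 a z ∉ T := fun z hz => (hQU hz).2
  refine ⟨Q, hQ, hQV, ?_, hS.low_Q hQ hQV hQT, fun ζ => hS.lim_all hT hC hinv hQ hQV hQT ζ⟩
  calc volume (C.V a \ Q) ≤ volume ({z | z ∈ C.V a ∧ F 1 a z ∈ T} ∪ (U \ Q)) := by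
        refine measure_mono fun z hz => ?_
        by_cases h1 : F 1 a z ∈ T
        · exact Or.inl ⟨hz.1, h1⟩
        · exact Or.inr ⟨⟨hz.1, h1⟩, hz.2⟩
    _ ≤ volume {z | z ∈ C.V a ∧ F 1 a z ∈ T} + volume (U \ Q) := measure_union_le _ _
    _ ≤ _ := by rw [hC.null 1 a, zero_add]; exact hQd.le

end

end Vale.Agent.P284.H661.T3
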