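import Vale.Agent.P284.H402.T.Spec
import Vale.Agent.P284.H551.VNE
import Vale.Agent.P284.H661.T3.EscW

/-! # P284 (helper661), T3: the escape hypothesis of (A'')_W -/

open scoped Manifold Topology ENNReal ContDiff InnerProductSpace ComplexConjugate ComplexOrder Matrix
open Filter Set Metric MeasureTheory

noncomputable section

namespace Vale.Agent.P284.H661.T3

open Vale.Agent.P272.K Vale.Agent.P284.H248 Vale.Agent.P284.H894 Vale.Agent.P284.H894.V
  Vale.Agent.P284.H551 Vale.Agent.P284.H402.A Vale.Agent.P284.H402.T Vale.Agent.P284.H913.V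

open Vale.Agent.P284.H287.T (cw dH ddH sg Sec cmp Good exists_good exists_good₂ dH_cmp ddH_cmp
  cmp_contDiffAt dH_congr dH_iso fd_cmp)

section alg
variable {n q : ℕ} {H : Type} [NormedAddCommGroup H] [InnerProductSpace ℝ H]

theorem ev_sum (v : Cm n) : ∃ c : Fin n × Bool → ℝ, v = ∑ a, c a • H359.V.ev a := by
  refine ⟨fun a => if a.2 then (v a.1).im else (v a.1).re, ?_⟩
  ext k
  rw [Fintype.sum_prod_type]
  simp only [Finset.sum_apply, Fintype.sum_bool, Pi.add_apply, Pi.smul_apply, H359.V.ev,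
    Pi.single_apply, Bool.false_eq_true, if_true, if_false]
  rw [Finset.sum_eq_single k]
  · simp only [if_true]
    rw [Complex.real_smul, Complex.real_smul, mul_one, add_comm]
    exact (Complex.re_add_im (v k)).symm
  · intro b _ hb
    simp [hb.symm]
  · simp

theorem good_fd {m : ℕ} {e : Fin m → H} {u : Cm n → H} {z : Cm n} (hg : Good u z e) (v : Cm n) :
    ‖fderiv ℝ u z v‖ ^ 2 = ∑ i, ⟪fderiv ℝ u z v, e i⟫_ℝ ^ 2 := by
  obtain ⟨c, hc⟩ := ev_sum v
  have h1 : fderiv ℝ u z v = ∑ a, c a • dH u z a := by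
    conv_lhs => rw [hc]
    rw [map_sum]
    simp only [map_smul]
    rfl
  have h2 : ∀ y, ⟪fderiv ℝ u z v, y⟫_ℝ = ∑ i, ⟪fderiv ℝ u z v, e i⟫_ℝ * ⟪y, e i⟫_ℝ := by
    intro y
    simp only [h1, sum_inner, real_inner_smul_left, Finset.sum_mul]
    rw [Finset.sum_comm]
    refine Finset.sum_congr rfl fun a _ => ?_
    rw [hg.d1, Finset.mul_sum]
    exact Finset.sum_congr rfl fun i _ => by ring
  rw [← real_inner_self_eq_norm_sq, h2]
  exact Finset.sum_congr rfl fun i _ => by rw [sq]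

/-- the vertical derivative -/
theorem vert_leW {w : Matrix (Fin n) (Fin n) ℂ} {θ : Matrix (Fin n) (Fin q) ℂ} (hw : w.PosDef)
    (hA : (AA w θ 0).PosSemidef) (hD : 0 < DD w θ 0) {u : Cm n → H} {z v : Cm n}
    (hu : DifferentiableAt ℝ u z) (hv : ∀ i, ∑ j, θ j i * v j = 0) :
    DD w θ 0 * ‖fderiv ℝ u z v‖ ^ 2 ≤
      4 * gM (AA w θ 0) (dH u z) (dH u z) * (H730.V.S w (star v) (star v)).re := by
  obtain ⟨m, e, hg⟩ := exists_good u z
  rw [good_fd hg v, Good_gM hg _ hu hu, Finset.mul_sum, Finset.mul_sum, Finset.sum_mul]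
  refine Finset.sum_le_sum fun i _ => ?_
  have h1 : ⟪fderiv ℝ u z v, e i⟫_ℝ = fderiv ℝ (cmp u (e i)) z v := (fd_cmp hu _ _).symm
  have h3 : DifferentiableAt ℝ (cmp u (e i)) z := hu.inner ℝ (differentiableAt_const _)
  rw [h1, fderiv_re h3 v]
  have h2 := vert_le hw hA hD (α := pd (cmp u (e i)) z) hv
  nlinarith

theorem gM_nonneg {M : Matrix (Fin n) (Fin n) ℂ} (hM : M.PosSemidef) {u : Cm n → H} {z : Cm n}
    (hu : DifferentiableAt ℝ u z) : 0 ≤ gM M (dH u z) (dH u z) := by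
  obtain ⟨m, e, hg⟩ := exists_good u z
  rw [Good_gM hg _ hu hu]
  exact Finset.sum_nonneg fun i _ => by rw [qf_eq]; exact H730.V.S_nonneg hM _

theorem cont_gM {A : Cm n → Matrix (Fin n) (Fin n) ℂ} {z : Cm n}
    (hA : ∀ i j, ContinuousAt (fun y => A y i j) z)
    {x y : Cm n → Fin n × Bool → H} (hx : ∀ a, ContinuousAt (fun z => x z a) z)
    (hy : ∀ a, ContinuousAt (fun z => y z a) z) : ContinuousAt (fun z => gM (A z) (x z) (y z)) z := by
  unfold gM
  refine tendsto_finsetSum _ fun a _ => tendsto_finsetSum _ fun b _ => ?_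
  refine ContinuousAt.mul ?_ ((hx a).inner (𝕜 := ℝ) (hy b))
  unfold cwM H359.V.cf
  have h1 : ContinuousAt (fun z => A z b.1 a.1) z := hA _ _
  have h2 : ContinuousAt (fun z => (A z b.1 a.1).re) z := Complex.continuous_re.continuousAt.comp h1
  have h3 : ContinuousAt (fun z => (A z b.1 a.1).im) z := Complex.continuous_im.continuousAt.comp h1
  split_ifs
  · exact h2.div_const _
  · exact h3.div_const _
  · exact h3.neg.div_const _

end alg

section glob
variable {n q : ℕ} {Γ : Type} [Group Γ] {C : Coc n Γ} {H : Type} [NormedAddCommGroup H]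
  [InnerProductSpace ℝ H] {π : Γ →* (H ≃ₗᵢ[ℝ] H)} {f h : Γ → C.I → Cm n → H}

theorem vW_cont (hf : Sec C π 0 f) (hh : Sec C π 0 h) (K : KM C) (θ : HF C q) (δ : ℝ) (a : C.I) :
    ContinuousOn (vW K θ δ a (f 1 a) (h 1 a)) (C.Ω a) := fun z hz =>
  (cont_gM (fun i j => (mc_AA (w_mc K hz) (w_det K hz) (th_mc θ hz) δ i j).continuousAt)
    (fun b => (H977.T.dH_sm (hf.smooth 1 a z hz) b).continuousAt)
    (fun b => (H977.T.dH_sm (hh.smooth 1 a z hz) b).continuousAt)).continuousWithinAt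

theorem one_near (hf : Sec C π 0 f) {a b : C.I} {z : Cm n} (hz : z ∈ C.O a b) :
    ∀ᶠ y in 𝓝 z, f 1 a y = π (C.κ a b z) (f 1 b (C.T a b y)) := by
  filter_upwards [(C.O_open a b).mem_nhds hz, C.κ_loc a b z hz] with y hy hk
  rw [H639.T6.one_ev π hf hy, hk]

theorem vW_inv (hf : Sec C π 0 f) (hh : Sec C π 0 h) (K : KM C) (θ : HF C q) (δ : ℝ) {a b : C.I}
    {z : Cm n} (hz : z ∈ C.O a b) :
    vW K θ δ a (f 1 a) (h 1 a) z = vW K θ δ b (f 1 b) (h 1 b) (C.T a b z) := by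
  have hzΩ := H639.V.O_sub_Ω C hz
  have hTΩ := H639.V.T_mem_Ω C hz
  set κ := C.κ a b z with hκ
  set u : Cm n → H := fun y => π κ (f 1 b y) + 0 with hu
  set v : Cm n → H := fun y => π κ (h 1 b y) + 0 with hv
  have hfd : DifferentiableAt ℝ (f 1 a) z := (hf.smooth 1 a z hzΩ).differentiableAt (by simp)
  have hhd : DifferentiableAt ℝ (h 1 a) z := (hh.smooth 1 a z hzΩ).differentiableAt (by simp)
  have iso : ∀ {g : Cm n → H} {y : Cm n}, DifferentiableAt ℝ g y →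
      DifferentiableAt ℝ (fun y => π κ (g y) + 0) y := fun {g y} hg =>
    (((π κ).toContinuousLinearEquiv : H →L[ℝ] H).differentiableAt.comp y hg).add_const 0
  have hud : DifferentiableAt ℝ u (C.T a b z) :=
    iso ((hf.smooth 1 b _ hTΩ).differentiableAt (by simp))
  have hvd : DifferentiableAt ℝ v (C.T a b z) :=
    iso ((hh.smooth 1 b _ hTΩ).differentiableAt (by simp))
  have e1 : vW K θ δ b (f 1 b) (h 1 b) (C.T a b z) =
      gM (AA (K.w b (C.T a b z)) (θ.th b (C.T a b z)) δ) (dH u (C.T a b z)) (dH v (C.T a b z)) := by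
    unfold vW gM
    simp only [hu, hv, dH_iso, LinearIsometryEquiv.inner_map_map]
  rw [e1]
  obtain ⟨m, e, hg, hg'⟩ := exists_good₂ (f 1 a) z u (C.T a b z)
  rw [vW, Good_gM hg _ hfd hhd, Good_gM hg' _ hud hvd]
  refine Finset.sum_congr rfl fun i _ => ?_
  have law : ∀ {g g' : Cm n → H}, DifferentiableAt ℝ g' (C.T a b z) →
      (∀ᶠ y in 𝓝 z, g y = g' (C.T a b y)) →
      pd (cmp g (e i)) z = (jac C a b z)ᵀ *ᵥ pd (cmp g' (e i)) (C.T a b z) := by
    intro g g' hg' he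
    refine H730.V.dd_comp (T_hol C hz).self_of_nhds (hg'.inner ℝ (differentiableAt_const _)) ?_
    filter_upwards [he] with y hy
    show ⟪g y, e i⟫_ℝ = ⟪g' (C.T a b y), e i⟫_ℝ
    rw [hy]
  have l1 := law hud (g := f 1 a) (by
    filter_upwards [one_near hf hz] with y hy
    rw [hu]; simp only [add_zero]; exact hy)
  have l2 := law hvd (g := h 1 a) (by
    filter_upwards [one_near hh hz] with y hy
    rw [hv]; simp only [add_zero]; exact hy)
  show qf _ (pd (cmp (f 1 a) (e i)) z) (pd (cmp (h 1 a) (e i)) z) =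
    qf _ (pd (cmp u (e i)) (C.T a b z)) (pd (cmp v (e i)) (C.T a b z))
  rw [l1, l2]
  exact qf_inv (AA_inv (inv_K K hz) (θ.change a b z hz) δ) _ _

theorem BD_vW (hf : Sec C π 0 f) (hh : Sec C π 0 h) (K : KM C) (θ : HF C q) (δ : ℝ) :
    BD C (fun a z => vW K θ δ a (f 1 a) (h 1 a) z) where
  cont a := vW_cont hf hh K θ δ a
  compat _ _ _ hz _ _ := vW_inv hf hh K θ δ hz

theorem BD_ip (hf : Sec C π 0 f) (hh : Sec C π 0 h) (K : KM C) (θ : HF C q) (δ : ℝ) :
    BD C (fun a z => dD K θ δ a z * ⟪f 1 a z, h 1 a z⟫_ℝ) where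
  cont a := (dD_cont K θ δ a).mul ((H639.T6.BD_inner π hf hh).cont a)
  compat a b z hz h1 h2 := by
    rw [dD_inv K θ δ hz, (H639.T6.BD_inner π hf hh).compat a b z hz h1 h2]

theorem vW_nonneg (hf : Sec C π 0 f) (K : KM C) (θ : HF C q) {a : C.I} {z : Cm n}
    (hz : z ∈ C.Ω a) : 0 ≤ vW K θ 0 a (f 1 a) (f 1 a) z :=
  gM_nonneg (H279.a2Stmt.herm _ _ 0 (w_pos K hz) le_rfl)
    ((hf.smooth 1 a z hz).differentiableAt (by simp))

/-- lower bound of the total integral -/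
theorem le_BInt (P : PU C) (K : KM C) {G : C.I → Cm n → ℝ} (hG : BD C G)
    (h0 : ∀ a, ∀ z ∈ C.Ω a, 0 ≤ G a z) (a : C.I) :
    ∫ z in C.V a, G a z ≤ BInt P K G / K.lam := by
  rw [le_div_iff₀ K.lam_pos, ← integral_mul_const]
  refine le_trans ?_ (hG.le P K h0 a)
  refine setIntegral_mono_on ((H913.V.intV (hG.cont a)).mul_const _) (hG.int_vol K a)
    (V_open a).measurableSet fun z hz => ?_
  exact mul_le_mul_of_nonneg_left (K.vol_low a z (V_sub a hz)) (h0 a z (V_sub a hz))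

end glob

section
variable {n q : ℕ} {Γ : Type} [Group Γ] {C : Coc n Γ} {F : Γ → C.I → Cm n → Cm q} {Kk : Set Γ}
  {T : Set (Cm q)} {H : Type} [NormedAddCommGroup H] [InnerProductSpace ℝ H]
  {π : Γ →* (H ≃ₗᵢ[ℝ] H)}

/-- sequences of sections with energy tending to zero -/
theorem wseq_of (P : PU C) (K : KM C) (θ : HF C q) (hC : VConn C F Kk T) (hd : DMap θ F)
    {h : ℕ → Γ → C.I → Cm n → H} (hh : ∀ j, Sec C π 0 (h j)) {B : ℝ}
    (hB : ∀ j, ipW P K θ 0 (h j) (h j) ≤ B)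
    (hE : Tendsto (fun j => enW P K θ 0 (h j) (h j)) atTop (𝓝 0)) :
    WSeq C F T π (fun _ a z => dD K θ 0 a z) h (fun j a z => vW K θ 0 a (h j 1 a) (h j 1 a) z) := by
  have hA := H279.a2Stmt
  have hD0 : ∀ a, ∀ z ∈ C.Ω a, 0 ≤ dD K θ 0 a z := fun a z hz =>
    (hA.DD_nonneg (K.w a z) (θ.th a z) 0 (w_pos K hz) le_rfl).1
  have hAA : ∀ a, ∀ z ∈ C.Ω a, (AA (K.w a z) (θ.th a z) 0).PosSemidef := fun a z hz =>
    hA.herm _ _ 0 (w_pos K hz) le_rfl
  refine ⟨fun j => (hh j).smooth, fun j => (hh j).compat, fun j g γ a z hz => ?_,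
    fun _ a => dD_cont K θ 0 a, fun _ a z hz => hD0 a z hz, ?_, ?_, ⟨B / K.lam, fun j a => ?_⟩,
    fun j a => vW_cont (hh j) (hh j) K θ 0 a, fun j a z hz => vW_nonneg (hh j) K θ hz, ?_,
    fun a => ?_⟩
  · have := (hh j).equi g γ a z hz
    rwa [Pi.zero_apply, add_zero] at this
  · intro γ a z hz hzT
    have hzΩ := V_sub a hz
    have h1 : 0 < dD K θ 0 a z :=
      hA.DD_pos _ _ (w_pos K hzΩ) (th_inj hd hzΩ (hC.reg γ a z hz hzT))
    have h2 : ContinuousAt (dD K θ 0 a) z := (dD_cont K θ 0 a).continuousAt ((Ω_open a).mem_nhds hzΩ)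
    refine ⟨{z' | dD K θ 0 a z / 2 < dD K θ 0 a z'}, ?_, dD K θ 0 a z / 2, half_pos h1,
      fun _ z' hz' => le_of_lt hz'⟩
    exact h2.eventually_const_lt (half_lt_self h1)
  · have h1 : ∀ a, ∃ M, ∀ z ∈ C.V a, dD K θ 0 a z ≤ M := by
      intro a
      obtain ⟨M, hM⟩ := (isCompact_closedBall (C.c a) (3 * C.r a)).exists_bound_of_continuousOn
        ((dD_cont K θ 0 a).mono (cball_sub a))
      exact ⟨M, fun z hz => (le_abs_self _).trans (hM z (ball_subset_closedBall hz))⟩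
    choose M hM using h1
    exact ⟨∑ a, |M a|, fun _ a z hz => (hM a z hz).trans ((le_abs_self _).trans
      (Finset.single_le_sum (f := fun a => |M a|) (fun _ _ => abs_nonneg _)
        (Finset.mem_univ a)))⟩
  · have h1 := le_BInt P K (BD_ip (hh j) (hh j) K θ 0)
      (fun a z hz => mul_nonneg (hD0 a z hz) real_inner_self_nonneg) a
    have h2 : ∀ z, ‖h j 1 a z‖ ^ 2 * dD K θ 0 a z = dD K θ 0 a z * ⟪h j 1 a z, h j 1 a z⟫_ℝ :=
      fun z => by rw [real_inner_self_eq_norm_sq, mul_comm]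
    simp only [h2]
    exact h1.trans (div_le_div_of_nonneg_right (hB j) K.lam_pos.le)
  · intro γ a z hz hzT
    have hzΩ := V_sub a hz
    have h1 : 0 < dD K θ 0 a z :=
      hA.DD_pos _ _ (w_pos K hzΩ) (th_inj hd hzΩ (hC.reg γ a z hz hzT))
    have h2 : ContinuousAt (dD K θ 0 a) z := (dD_cont K θ 0 a).continuousAt ((Ω_open a).mem_nhds hzΩ)
    set c₀ := dD K θ 0 a z / 2 with hc₀
    have hc₀0 : 0 < c₀ := half_pos h1
    refine ⟨{z' | c₀ < dD K θ 0 a z'} ∩ C.Ω a,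
      inter_mem (h2.eventually_const_lt (half_lt_self h1)) ((Ω_open a).mem_nhds hzΩ),
      4 * (|K.Lam| * n) / c₀, fun j z' hz' v hv => ?_⟩
    obtain ⟨hz'1, hz'2⟩ := hz'
    have hz'3 : c₀ < DD (K.w a z') (θ.th a z') 0 := hz'1
    have e0 : ∀ i, ∑ k, θ.th a z' k i * v k = 0 := fun i => by
      rw [← hd γ a z' hz'2 v i, hv]; rfl
    have e1 := vert_leW (w_pos K hz'2) (hAA a z' hz'2) (hc₀0.trans hz'3)
      (((hh j).smooth 1 a z' hz'2).differentiableAt (by simp)) e0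
    have e2 : (H730.V.S (K.w a z') (star v) (star v)).re ≤ |K.Lam| * n * ‖v‖ ^ 2 := by
      have h3 := K.up a z' hz'2 v
      have h4 := H730.V.form_eq (K.w a z') v
      have h5 : (fun j => conj (v j)) = star v := rfl
      rw [h5] at h4
      rw [h4] at h3
      refine h3.trans ?_
      have h6 : ∑ k, ‖v k‖ ^ 2 ≤ n * ‖v‖ ^ 2 := by
        calc ∑ k, ‖v k‖ ^ 2 ≤ ∑ _k : Fin n, ‖v‖ ^ 2 :=
              Finset.sum_le_sum fun k _ => pow_le_pow_left₀ (norm_nonneg _) (norm_le_pi_norm v k) 2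
          _ = _ := by simp
      calc K.Lam * ∑ k, ‖v k‖ ^ 2 ≤ |K.Lam| * ∑ k, ‖v k‖ ^ 2 :=
            mul_le_mul_of_nonneg_right (le_abs_self _) (Finset.sum_nonneg fun _ _ => sq_nonneg _)
        _ ≤ |K.Lam| * (n * ‖v‖ ^ 2) := mul_le_mul_of_nonneg_left h6 (abs_nonneg _)
        _ = _ := by ring
    have e3 : 0 ≤ vW K θ 0 a (h j 1 a) (h j 1 a) z' := vW_nonneg (hh j) K θ hz'2
    set s := ‖fderiv ℝ (h j 1 a) z' v‖ with hs
    have e4 : c₀ * s ^ 2 ≤ 4 * vW K θ 0 a (h j 1 a) (h j 1 a) z' * (|K.Lam| * n * ‖v‖ ^ 2) := by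
      calc c₀ * s ^ 2 ≤ DD (K.w a z') (θ.th a z') 0 * s ^ 2 :=
            mul_le_mul_of_nonneg_right hz'3.le (sq_nonneg _)
        _ ≤ _ := e1
        _ ≤ _ := mul_le_mul_of_nonneg_left e2 (mul_nonneg (by norm_num) e3)
    rw [div_mul_eq_mul_div, div_mul_eq_mul_div, le_div_iff₀ hc₀0]
    nlinarith
  · have h0 : ∀ j, ∀ a, ∀ z ∈ C.Ω a, 0 ≤ vW K θ 0 a (h j 1 a) (h j 1 a) z := fun j a z hz =>
      vW_nonneg (hh j) K θ hz
    refine squeeze_zero (fun j => setIntegral_nonneg (V_open a).measurableSet fun z hz =>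
      h0 j a z (V_sub a hz)) (fun j => ?_) (g := fun j => enW P K θ 0 (h j) (h j) / K.lam) ?_
    · exact le_BInt P K (BD_vW (hh j) (hh j) K θ 0) (h0 j) a
    · have := hE.div_const K.lam
      rwa [zero_div] at this

/-- **Escape**: representations without `Kk`-invariant vectors -/
theorem escW_of [CompleteSpace H] (P : PU C) (K : KM C) (θ : HF C q) (hT : TMap C F)
    (hC : VConn C F Kk T) (hd : DMap θ F) (hinv : ∀ x : H, (∀ k ∈ Kk, π k x = x) → x = 0) :
    EscW P K θ π := by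
  rintro h hh ⟨B, hB⟩ hE f hf
  have hS := wseq_of P K θ hC hd hh hB hE
  have key : ∀ a, Tendsto (fun j => ∫ z in C.V a, P.χ a a z *
      (dD K θ 0 a z * ⟪h j 1 a z, f 1 a z⟫_ℝ) * vol (K.w a) z) atTop (𝓝 0) := by
    intro a
    have h1 := hS.weak hT hC hinv a (φ := fun z => (P.χ a a z * vol (K.w a) z) • f 1 a z) ?_
    · refine h1.congr fun j => ?_
      refine integral_congr_ae (Eventually.of_forall fun z => ?_)
      show ⟪h j 1 a z, (P.χ a a z * vol (K.w a) z) • f 1 a z⟫_ℝ * dD K θ 0 a z = _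
      rw [real_inner_smul_right]
      ring
    · refine ContinuousOn.mono ?_ (cball_sub a)
      refine ContinuousOn.smul (ContinuousOn.mul ?_ ?_) ?_
      · exact fun z hz => (P.smooth a a z hz).continuousAt.continuousWithinAt
      · exact H913.V.vol_cont K a
      · exact fun z hz => (hf.smooth 1 a z hz).continuousAt.continuousWithinAt
  have h4 := tendsto_finsetSum Finset.univ fun a _ => key a
  simpa [ipW, BInt] using h4

end

section
variable {n q : ℕ} {X : Type} [TopologicalSpace X] [T2Space X] [CompactSpace X] [ConnectedSpace X]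
  [ChartedSpace (Cm n) X] [IsManifold 𝓘(ℂ, Cm n) ω X]
  {w : Chart n X → Cm n → Matrix (Fin n) (Fin n) ℂ}
  {E Γ : Type} [TopologicalSpace E] [ConnectedSpace E] [Group Γ] [MulAction Γ E] {p : E → X}
  {C : Coc n Γ} {F : E → Cm q} {c : Γ → Cm q} {H : Type} [NormedAddCommGroup H]
  [InnerProductSpace ℝ H] [CompleteSpace H]

open H894.G H894.W in
/-- **the escape hypothesis of (A'')_W** on a covering with a connected regular fibre -/
theorem escW_E (hG : IsGalois Γ p) (D : ECoc p C) (P : PU C) (K : KM C)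
    (hKw : ∀ a, K.w a = w (D.e a)) {B : ℝ} (hF : HolB p w F B) (hP : H494.Per p w F c) (hq : 1 ≤ q)
    (hreg : ∃ y, Reg (n := n) p F y) (hconn : ∃ t ∈ H494.RV n p F, IsConnected (F ⁻¹' {t}))
    (π : Γ →* (H ≃ₗᵢ[ℝ] H)) (hinv : ∀ x : H, (∀ k, c k = 0 → π k x = x) → x = 0) :
    EscW P K (hfF hG D K hKw hF hP.equiv hreg) π :=
  escW_of P K _ (tMap hG D hF) (vConn_of hG D hP hq hreg hconn (Kk := {k | c k = 0})
    fun _ hk => hk) (dMap hG D K hKw hF hP.equiv hreg) hinv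

end

end Vale.Agent.P284.H661.T3
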