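import Vale.Agent.P284.H551.VN4
import Vale.Agent.P284.H287.T.Defs

/-! # P284 (helper661), T3: vertical escape for functions with values in a representation (after
helper551's VN3, VN4) -/

open scoped Topology ENNReal ContDiff
open Filter Set Metric MeasureTheory

noncomputable section

namespace Vale.Agent.P284.H661.T3

open Vale.Agent.P272.K Vale.Agent.P284.H248 Vale.Agent.P284.H894 Vale.Agent.P284.H894.V
  Vale.Agent.P284.H551

section
variable {n q : ℕ} {Γ : Type} [Group Γ] {C : Coc n Γ} {F : Γ → C.I → Cm n → Cm q} {Kk : Set Γ}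
  {T : Set (Cm q)} {h e : ℕ → Γ → C.I → Cm n → ℝ}

variable (C F T h e) in
/-- `VSeq` without the bounds -/
structure VSq : Prop where
  smooth : ∀ j γ a, ∀ z ∈ C.Ω a, ContDiffAt ℝ ∞ (h j γ a) z
  compat : ∀ j γ a b, ∀ z ∈ C.O a b, h j γ a z = h j (γ * C.κ a b z) b (C.T a b z)
  e_cont : ∀ j γ a, ContinuousOn (e j γ a) (C.Ω a)
  e_nonneg : ∀ j γ a, ∀ z ∈ C.Ω a, 0 ≤ e j γ a z
  e_le : ∀ γ a, ∀ z ∈ C.V a, F γ a z ∉ T → ∃ U ∈ 𝓝 z, ∃ c : ℝ, ∀ j, ∀ z' ∈ U, ∀ v : Cm n,
    fderiv ℂ (F γ a) z' v = 0 → (fderiv ℝ (h j γ a) z' v) ^ 2 ≤ c * e j γ a z' * ‖v‖ ^ 2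
  e_lim : ∀ γ a, Tendsto (fun j => ∫ z in C.V a, e j γ a z) atTop (𝓝 0)

/-- existence of the slices -/
theorem exists_near (hT : TMap C F) (hC : VConn C F Kk T) (hS : VSq C F T h e)
    {γ : Γ} {a : C.I} {z : Cm n} (hz : z ∈ C.V a) (hzT : F γ a z ∉ T) :
    ∃ M : ℕ → Cm q → ℝ, (∀ j, Measurable (M j)) ∧ Near F h M γ a z := by
  obtain ⟨U, hU, c, hc⟩ := hS.e_le γ a z hz hzT
  have hUV : U ∩ C.V a ∈ 𝓝 z := inter_mem hU ((V_open a).mem_nhds hz)
  obtain ⟨O, hO, K, hK, hp⟩ := vert_poinc (holo_near hT hz) (hC.reg γ a z hz hzT) hUV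
  have h1 : ∀ j, ∃ M : Cm q → ℝ, Measurable M ∧
      ∫⁻ z' in O, ENNReal.ofReal ((h j γ a z' - M (F γ a z')) ^ 2) ≤
        K * (ENNReal.ofReal |c| * ENNReal.ofReal (∫ z' in C.V a, e j γ a z')) := by
    intro j
    obtain ⟨M, hM, hM'⟩ := hp (h j γ a) (fun z' => |c| * e j γ a z')
      (fun z' hz' => (hS.smooth j γ a z' (V_sub a hz'.2)).of_le (by exact_mod_cast le_top))
      (continuousOn_const.mul ((hS.e_cont j γ a).mono fun z' hz' => V_sub a hz'.2))
      (fun z' hz' => mul_nonneg (abs_nonneg c) (hS.e_nonneg j γ a z' (V_sub a hz'.2)))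
      (fun z' hz' v hv => by
        refine (hc j z' hz'.1 v hv).trans ?_
        have h2 := hS.e_nonneg j γ a z' (V_sub a hz'.2)
        have h3 : c * e j γ a z' ≤ |c| * e j γ a z' :=
          mul_le_mul_of_nonneg_right (le_abs_self c) h2
        exact mul_le_mul_of_nonneg_right h3 (sq_nonneg _))
    refine ⟨M, hM, hM'.trans ?_⟩
    gcongr
    calc ∫⁻ z' in U ∩ C.V a, ENNReal.ofReal (|c| * e j γ a z')
        ≤ ∫⁻ z' in C.V a, ENNReal.ofReal (|c| * e j γ a z') := lintegral_mono_set inter_subset_right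
      _ = ∫⁻ z' in C.V a, ENNReal.ofReal |c| * ENNReal.ofReal (e j γ a z') := by
          simp only [ENNReal.ofReal_mul (abs_nonneg c)]
      _ = ENNReal.ofReal |c| * ∫⁻ z' in C.V a, ENNReal.ofReal (e j γ a z') :=
          lintegral_const_mul' _ _ ENNReal.ofReal_ne_top
      _ = _ := by
          rw [ofReal_integral_eq_lintegral_ofReal (intV (hS.e_cont j γ a))]
          filter_upwards [ae_restrict_mem (V_open a).measurableSet] with z' hz'
          exact hS.e_nonneg j γ a z' (V_sub a hz')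
  choose M hM hM' using h1
  refine ⟨M, hM, O, hO, ?_⟩
  refine tendsto_of_tendsto_of_tendsto_of_le_of_le tendsto_const_nhds ?_ (fun j => zero_le)
    hM'
  have h2 : Tendsto (fun j => ENNReal.ofReal (∫ z' in C.V a, e j γ a z')) atTop (𝓝 0) := by
    have := (ENNReal.continuous_ofReal.tendsto 0).comp (hS.e_lim γ a)
    rwa [ENNReal.ofReal_zero] at this
  have h3 := ENNReal.Tendsto.const_mul (a := ENNReal.ofReal |c|) h2 (Or.inr ENNReal.ofReal_ne_top)
  have h4 := ENNReal.Tendsto.const_mul (a := K) h3 (Or.inr hK)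
  simpa using h4


/-- invariance under the changes of coordinates -/
theorem near_trans (hT : TMap C F) (hS : VSq C F T h e) {M : ℕ → Cm q → ℝ} {γ : Γ} {a b : C.I}
    {z : Cm n} (hz : z ∈ C.O a b) (hN : Near F h M γ a z) :
    Near F h M (γ * C.κ a b z) b (C.T a b z) := by
  obtain ⟨O, hO, hlim⟩ := hN
  have hTs : ∀ z' ∈ C.O a b, HasFDerivAt (C.T a b) (fderiv ℝ (C.T a b) z') z' := fun z' hz' =>
    ((C.T_smooth hz').differentiableAt (by simp)).hasFDerivAt
  have hdc : ContinuousAt (fun z' => |(fderiv ℝ (C.T a b) z').det|) z := by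
    apply ContinuousAt.abs
    apply ContinuousLinearMap.continuous_det.continuousAt.comp
    exact ((C.T_smooth hz).fderiv_right (m := 0) (by simp)).continuousAt
  set D : ℝ := |(fderiv ℝ (C.T a b) z).det| + 1 with hD
  have e1 : ∀ᶠ z' in 𝓝 z, |(fderiv ℝ (C.T a b) z').det| < D :=
    hdc.eventually_lt continuousAt_const (lt_add_one _)
  have e2 : ∀ᶠ z' in 𝓝 z, z' ∈ O := hO
  have e3 : ∀ᶠ z' in 𝓝 z, z' ∈ C.O a b := (C.O_open a b).mem_nhds hz
  obtain ⟨O₁, hO₁, hO₁o, hzO₁⟩ := _root_.eventually_nhds_iff.1 (e1.and (e2.and (e3.and (C.κ_loc a b z hz))))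
  have hinv : ∀ w ∈ C.O b a, C.T a b (C.T b a w) = w := fun w hw => C.T_inv hw
  have hz' : C.T a b z ∈ C.O b a := C.T_mem a b z hz
  have himg : C.T a b '' O₁ ∈ 𝓝 (C.T a b z) := by
    have h1 : ContinuousAt (C.T b a) (C.T a b z) := (C.T_smooth hz').continuousAt
    have h2 : C.T b a (C.T a b z) = z := C.T_inv hz
    have h3 : ∀ᶠ w in 𝓝 (C.T a b z), C.T b a w ∈ O₁ := by
      apply h1
      rw [h2]
      exact hO₁o.mem_nhds hzO₁
    filter_upwards [h3, (C.O_open b a).mem_nhds hz'] with w hw1 hw2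
    exact ⟨C.T b a w, hw1, hinv w hw2⟩
  refine ⟨C.T a b '' O₁, himg, ?_⟩
  refine tends_le (tends_mul hlim (K := ENNReal.ofReal D) ENNReal.ofReal_ne_top) fun j => ?_
  have hinj : InjOn (C.T a b) O₁ := by
    intro x hx y hy hxy
    rw [← C.T_inv (hO₁ x hx).2.2.1, ← C.T_inv (hO₁ y hy).2.2.1, hxy]
  rw [lintegral_image_eq_lintegral_abs_det_fderiv_mul volume hO₁o.measurableSet
    (fun x hx => (hTs x (hO₁ x hx).2.2.1).hasFDerivWithinAt) hinj,
    ← lintegral_const_mul' _ _ ENNReal.ofReal_ne_top]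
  refine le_trans ?_ (lintegral_mono_set fun x hx => (hO₁ x hx).2.1)
  refine setLIntegral_mono' hO₁o.measurableSet fun x hx => ?_
  obtain ⟨h1, h2, h3, h4⟩ := hO₁ x hx
  have c1 := hS.compat j γ a b x h3
  have c2 := hT.compat γ a b x h3
  rw [h4] at c1 c2
  rw [← c1, ← c2]
  gcongr

/-- local constancy along the fibre -/
theorem near_loc (hT : TMap C F) (hC : VConn C F Kk T) (hS : VSq C F T h e)
    {M₀ : ℕ → Cm q → ℝ} (hM₀ : ∀ j, Measurable (M₀ j))
    {γ : Γ} {a : C.I} {z : Cm n} (hz : z ∈ C.V a) (hzT : F γ a z ∉ T) :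
    ∃ N ∈ 𝓝 z, ∀ z' ∈ N, F γ a z' = F γ a z → (Near F h M₀ γ a z ↔ Near F h M₀ γ a z') := by
  obtain ⟨M, hM, O, hO, hlim⟩ := exists_near hT hC hS hz hzT
  set N := interior O ∩ C.V a with hN
  have hNo : IsOpen N := isOpen_interior.inter (V_open a)
  have hzN : z ∈ N := ⟨mem_interior_iff_mem_nhds.2 hO, hz⟩
  have hlimN : Tendsto (fun j => ∫⁻ z' in N, ENNReal.ofReal ((h j γ a z' - M j (F γ a z')) ^ 2))
      atTop (𝓝 0) := tends_le hlim fun j =>
    lintegral_mono_set (inter_subset_left.trans interior_subset)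
  have key : ∀ z₁ ∈ N, ∀ z₂ ∈ N, F γ a z₁ = F γ a z → F γ a z₂ = F γ a z →
      Near F h M₀ γ a z₁ → Near F h M₀ γ a z₂ := by
    rintro z₁ hz₁ z₂ hz₂ hF₁ hF₂ ⟨O₁, hO₁, hl₁⟩
    have hr₁ := hC.reg γ a z₁ hz₁.2 (by rw [hF₁]; exact hzT)
    have hr₂ := hC.reg γ a z₂ hz₂.2 (by rw [hF₂]; exact hzT)
    obtain ⟨ρ, hρ, K₁, hK₁, hlow⟩ := push_low (holo_near hT hz₁.2) hr₁
      (inter_mem hO₁ (hNo.mem_nhds hz₁))
    obtain ⟨O₂, hO₂, K₂, hK₂, hup⟩ := push_up (holo_near hT hz₂.2) hr₂ hρ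
    set g : ℕ → Cm q → ℝ≥0∞ := fun j s => ENNReal.ofReal ((M₀ j s - M j s) ^ 2) with hg
    have hgm : ∀ j, Measurable (g j) := fun j =>
      ENNReal.measurable_ofReal.comp (((hM₀ j).sub (hM j)).pow_const 2)
    have l1 : Tendsto (fun j => ∫⁻ z' in O₁ ∩ N, g j (F γ a z')) atTop (𝓝 0) := by
      refine tends_le (tends_add hl₁ hlimN) fun j => ?_
      have hmeas : AEMeasurable (fun z' => ENNReal.ofReal ((h j γ a z' - M j (F γ a z')) ^ 2))
          (volume.restrict N) := by
        apply ENNReal.measurable_ofReal.comp_aemeasurable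
        apply AEMeasurable.pow_const
        have h1 : AEMeasurable (h j γ a) (volume.restrict N) :=
          (ContinuousOn.mono (fun x hx => (hS.smooth j γ a x hx).continuousAt.continuousWithinAt)
            fun x hx => V_sub a hx.2).aemeasurable hNo.measurableSet
        have h2 : AEMeasurable (F γ a) (volume.restrict N) :=
          ((hT.holo γ a).continuousOn.mono fun x hx => V_sub a hx.2).aemeasurable hNo.measurableSet
        exact h1.sub ((hM j).comp_aemeasurable h2)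
      calc ∫⁻ z' in O₁ ∩ N, g j (F γ a z')
          ≤ ∫⁻ z' in O₁ ∩ N, (2 * ENNReal.ofReal ((h j γ a z' - M₀ j (F γ a z')) ^ 2) +
              2 * ENNReal.ofReal ((h j γ a z' - M j (F γ a z')) ^ 2)) := by
            refine lintegral_mono fun z' => ?_
            have := ofReal_sq_sub_le (M₀ j (F γ a z')) (M j (F γ a z')) (h j γ a z')
            rw [show (M₀ j (F γ a z') - h j γ a z') ^ 2 = (h j γ a z' - M₀ j (F γ a z')) ^ 2 by ring,
              show (M j (F γ a z') - h j γ a z') ^ 2 = (h j γ a z' - M j (F γ a z')) ^ 2 by ring]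
              at this
            exact this
        _ = (∫⁻ z' in O₁ ∩ N, 2 * ENNReal.ofReal ((h j γ a z' - M₀ j (F γ a z')) ^ 2)) +
            ∫⁻ z' in O₁ ∩ N, 2 * ENNReal.ofReal ((h j γ a z' - M j (F γ a z')) ^ 2) := by
            apply lintegral_add_right'
            exact (hmeas.mono_measure (Measure.restrict_mono inter_subset_right le_rfl)).const_mul _
        _ ≤ _ := by
            rw [lintegral_const_mul' _ _ (by norm_num), lintegral_const_mul' _ _ (by norm_num)]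
            gcongr
            · exact inter_subset_left
            · exact inter_subset_right
    have l2 : Tendsto (fun j => ∫⁻ s in ball (F γ a z) ρ, g j s) atTop (𝓝 0) := by
      refine tends_le (tends_mul l1 hK₁) fun j => ?_
      have := hlow (g j) (hgm j)
      rwa [hF₁] at this
    have l3 : Tendsto (fun j => ∫⁻ z' in O₂, g j (F γ a z')) atTop (𝓝 0) := by
      refine tends_le (tends_mul l2 hK₂) fun j => ?_
      have := hup (g j) (hgm j)
      rwa [hF₂] at this
    refine ⟨O₂ ∩ N, inter_mem hO₂ (hNo.mem_nhds hz₂), ?_⟩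
    refine tends_le (tends_add hlimN l3) fun j => ?_
    have hmeas : AEMeasurable (fun z' => g j (F γ a z')) (volume.restrict N) := by
      have h2 : AEMeasurable (F γ a) (volume.restrict N) :=
        ((hT.holo γ a).continuousOn.mono fun x hx => V_sub a hx.2).aemeasurable hNo.measurableSet
      exact (hgm j).comp_aemeasurable h2
    calc ∫⁻ z' in O₂ ∩ N, ENNReal.ofReal ((h j γ a z' - M₀ j (F γ a z')) ^ 2)
        ≤ ∫⁻ z' in O₂ ∩ N, (2 * ENNReal.ofReal ((h j γ a z' - M j (F γ a z')) ^ 2) +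
              2 * g j (F γ a z')) := by
          refine lintegral_mono fun z' => ?_
          exact ofReal_sq_sub_le (h j γ a z') (M₀ j (F γ a z')) (M j (F γ a z'))
      _ = (∫⁻ z' in O₂ ∩ N, 2 * ENNReal.ofReal ((h j γ a z' - M j (F γ a z')) ^ 2)) +
            ∫⁻ z' in O₂ ∩ N, 2 * g j (F γ a z') := by
          apply lintegral_add_right'
          exact (hmeas.mono_measure (Measure.restrict_mono inter_subset_right le_rfl)).const_mul _
      _ ≤ _ := by
          rw [lintegral_const_mul' _ _ (by norm_num), lintegral_const_mul' _ _ (by norm_num)]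
          gcongr
          · exact inter_subset_right
          · exact inter_subset_left
  exact ⟨N, hNo.mem_nhds hzN, fun z' hz' hF' =>
    ⟨key z hzN z' hz' rfl hF', key z' hz' z hzN hF' rfl⟩⟩

/-- the translates by `Kk` are asymptotically equal near the point -/
theorem near_k (hT : TMap C F) (hC : VConn C F Kk T) (hS : VSq C F T h e)
    {γ : Γ} {a : C.I} {z : Cm n} (hz : z ∈ C.V a) (hzT : F γ a z ∉ T) {k : Γ} (hk : k ∈ Kk) :
    ∃ O ∈ 𝓝 z, Tendsto (fun j => ∫⁻ z' in O, ENNReal.ofReal ((h j (k * γ) a z' - h j γ a z') ^ 2))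
      atTop (𝓝 0) := by
  obtain ⟨M, hM, hN⟩ := exists_near hT hC hS hz hzT
  have h1 : Near F h M (k * γ) a z := by
    refine hC.conn (F γ a z) hzT (fun γ a z => Near F h M γ a z) ?_ ?_ γ a z hz rfl hN k hk
    · intro γ' a' b z' hz' _ _ _ hN'
      exact near_trans hT hS hz' hN'
    · intro γ' a' z' hz' hF'
      obtain ⟨N, hN, hN'⟩ := near_loc hT hC hS hM hz' (by rw [hF']; exact hzT)
      refine ⟨N, hN, fun z'' hz'' hF'' => hN' z'' hz'' (by rw [hF'', hF'])⟩
  obtain ⟨O, hO, hl⟩ := hN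
  obtain ⟨O₁, hO₁, hl₁⟩ := h1
  obtain ⟨O', hO'sub, hO'o, hzO'⟩ := _root_.mem_nhds_iff.1
    (inter_mem (inter_mem hO hO₁) ((V_open a).mem_nhds hz))
  refine ⟨O', hO'o.mem_nhds hzO', ?_⟩
  refine tends_le (tends_add hl₁ hl) fun j => ?_
  have hmeas : AEMeasurable (fun z' => ENNReal.ofReal ((h j γ a z' - M j (F γ a z')) ^ 2))
      (volume.restrict O') := by
    apply ENNReal.measurable_ofReal.comp_aemeasurable
    apply AEMeasurable.pow_const
    have h1 : AEMeasurable (h j γ a) (volume.restrict O') :=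
      (ContinuousOn.mono (fun x hx => (hS.smooth j γ a x hx).continuousAt.continuousWithinAt)
        fun x hx => V_sub a (hO'sub hx).2).aemeasurable hO'o.measurableSet
    have h2 : AEMeasurable (F γ a) (volume.restrict O') :=
      ((hT.holo γ a).continuousOn.mono fun x hx => V_sub a (hO'sub hx).2).aemeasurable
        hO'o.measurableSet
    exact h1.sub ((hM j).comp_aemeasurable h2)
  calc ∫⁻ z' in O', ENNReal.ofReal ((h j (k * γ) a z' - h j γ a z') ^ 2)
      ≤ ∫⁻ z' in O', (2 * ENNReal.ofReal ((h j (k * γ) a z' - M j (F (k * γ) a z')) ^ 2) +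
            2 * ENNReal.ofReal ((h j γ a z' - M j (F γ a z')) ^ 2)) := by
        refine setLIntegral_mono' hO'o.measurableSet fun z' hz' => ?_
        rw [hC.ker k hk γ a z' (hO'sub hz').2]
        exact ofReal_sq_sub_le _ _ _
    _ = (∫⁻ z' in O', 2 * ENNReal.ofReal ((h j (k * γ) a z' - M j (F (k * γ) a z')) ^ 2)) +
          ∫⁻ z' in O', 2 * ENNReal.ofReal ((h j γ a z' - M j (F γ a z')) ^ 2) := by
        apply lintegral_add_right'
        exact hmeas.const_mul _
    _ ≤ _ := by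
        rw [lintegral_const_mul' _ _ (by norm_num), lintegral_const_mul' _ _ (by norm_num)]
        gcongr
        · exact fun x hx => (hO'sub hx).1.2
        · exact fun x hx => (hO'sub hx).1.1

/-- the translates by `Kk` are asymptotically equal on compact sets -/
theorem near_k_Q (hT : TMap C F) (hC : VConn C F Kk T) (hS : VSq C F T h e)
    {γ : Γ} {a : C.I} {Q : Set (Cm n)} (hQ : IsCompact Q) (hQV : Q ⊆ C.V a)
    (hQT : ∀ z ∈ Q, F γ a z ∉ T) {k : Γ} (hk : k ∈ Kk) :
    Tendsto (fun j => ∫⁻ z' in Q, ENNReal.ofReal ((h j (k * γ) a z' - h j γ a z') ^ 2))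
      atTop (𝓝 0) := by
  refine hQ.induction_on (p := fun s => Tendsto (fun j => ∫⁻ z' in s,
    ENNReal.ofReal ((h j (k * γ) a z' - h j γ a z') ^ 2)) atTop (𝓝 0)) ?_ ?_ ?_ ?_
  · simp
  · intro s t hst ht
    exact tends_le ht fun j => lintegral_mono_set hst
  · intro s t hs ht
    have h1 := hs.add ht
    rw [add_zero] at h1
    exact tends_le h1 fun j => lintegral_union_le _ s t
  · intro z hz
    obtain ⟨O, hO, hl⟩ := near_k hT hC hS (hQV hz) (hQT z hz) hk
    exact ⟨O, mem_nhdsWithin_of_mem_nhds hO, hl⟩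

end

end Vale.Agent.P284.H661.T3
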