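import Vale.Agent.P284.H661.T3.VN

/-! # P284 (helper661), T3: weak convergence of Hilbert valued functions -/

open scoped Topology ENNReal ContDiff InnerProductSpace
open Filter Set Metric MeasureTheory

noncomputable section

namespace Vale.Agent.P284.H661.T3

open Vale.Agent.P272.K

section
variable {n : ℕ} {W : Type} [NormedAddCommGroup W] [InnerProductSpace ℝ W]

/-- the part on a small set -/
theorem weak_b2 {D : Set (Cm n)} (hD : MeasurableSet D) (hDt : volume D ≠ ⊤) {m : Cm n → ℝ}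
    {u φ : Cm n → W} {M B A η : ℝ} (hη0 : 0 < η)
    (i1 : IntegrableOn (fun z => ⟪u z, φ z⟫_ℝ * m z) D)
    (i2 : IntegrableOn (fun z => ‖u z‖ ^ 2 * m z) D)
    (hm0 : ∀ z ∈ D, 0 ≤ m z) (hM : ∀ z ∈ D, m z ≤ M) (hA : ∀ z ∈ D, ‖φ z‖ ≤ A)
    (hB : ∫ z in D, ‖u z‖ ^ 2 * m z ≤ B) :
    |∫ z in D, ⟪u z, φ z⟫_ℝ * m z| ≤ (η * B + A ^ 2 * M / η * (volume D).toReal) / 2 := by
  have k0 : IntegrableOn (fun z => η * (‖u z‖ ^ 2 * m z)) D := i2.const_mul _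
  have k1 : IntegrableOn (fun _ : Cm n => A ^ 2 * M / η) D := integrableOn_const hDt
  have k2 : IntegrableOn (fun z => (η * (‖u z‖ ^ 2 * m z) + A ^ 2 * M / η) / 2) D :=
    (k0.add k1).div_const 2
  calc |∫ z in D, ⟪u z, φ z⟫_ℝ * m z| ≤ ∫ z in D, |⟪u z, φ z⟫_ℝ * m z| :=
        abs_integral_le_integral_abs
    _ ≤ ∫ z in D, (η * (‖u z‖ ^ 2 * m z) + A ^ 2 * M / η) / 2 := by
        refine setIntegral_mono_on i1.abs k2 hD fun z hz => ?_
        have h1 : ‖φ z‖ ≤ A := hA z hz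
        have h2 : 0 ≤ m z := hm0 z hz
        have h3 : m z ≤ M := hM z hz
        rw [abs_mul, abs_of_nonneg h2]
        have h4 : |⟪u z, φ z⟫_ℝ| * m z ≤ ‖u z‖ * A * m z := by
          have := abs_real_inner_le_norm (u z) (φ z)
          exact mul_le_mul_of_nonneg_right
            (this.trans (mul_le_mul_of_nonneg_left h1 (norm_nonneg _))) h2
        refine h4.trans ?_
        have h6 : η * (2 * (‖u z‖ * A * m z)) ≤ η * (η * (‖u z‖ ^ 2 * m z) + A ^ 2 * M / η) := by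
          have h7 : η * (A ^ 2 * M / η) = A ^ 2 * M := by field_simp
          have h10 : A ^ 2 * m z ≤ A ^ 2 * M := mul_le_mul_of_nonneg_left h3 (sq_nonneg _)
          have h5 : 0 ≤ (η * ‖u z‖ - A) ^ 2 * m z := mul_nonneg (sq_nonneg _) h2
          calc η * (2 * (‖u z‖ * A * m z))
              ≤ η ^ 2 * (‖u z‖ ^ 2 * m z) + A ^ 2 * m z := by nlinarith
            _ ≤ η ^ 2 * (‖u z‖ ^ 2 * m z) + A ^ 2 * M := by linarith
            _ = _ := by rw [mul_add, h7]; ring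
        have h9 := le_of_mul_le_mul_left h6 hη0
        linarith
    _ = ((η * ∫ z in D, ‖u z‖ ^ 2 * m z) + A ^ 2 * M / η * (volume D).toReal) / 2 := by
        have e1 : ∫ z in D, (η * (‖u z‖ ^ 2 * m z) + A ^ 2 * M / η) =
            (η * ∫ z in D, ‖u z‖ ^ 2 * m z) + A ^ 2 * M / η * (volume D).toReal := by
          have e2 := integral_add k0 k1
          rw [e2, integral_const_mul, setIntegral_const]
          simp only [smul_eq_mul, Measure.real]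
          ring
        have e3 := integral_div (μ := volume.restrict D) 2
          (fun z => η * (‖u z‖ ^ 2 * m z) + A ^ 2 * M / η)
        rw [e3, e1]
    _ ≤ _ := by
        have := mul_le_mul_of_nonneg_left hB hη0.le
        linarith

/-- the part on the compact set -/
theorem weak_b1 {Q : Set (Cm n)} (hQm : MeasurableSet Q) (hQt : volume Q ≠ ⊤) {m : Cm n → ℝ}
    {u φ : Cm n → W} {M ε₁ η₂ : ℝ} (hM0 : 0 ≤ M) (hε₁0 : 0 < ε₁) (hη₂0 : 0 < η₂)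
    (i1 : IntegrableOn (fun z => ⟪u z, φ z⟫_ℝ * m z) Q)
    (i3 : IntegrableOn (fun z => ‖u z‖ ^ 2) Q)
    (i4 : ∀ ζ : W, IntegrableOn (fun z => ⟪u z, ζ⟫_ℝ ^ 2) Q)
    (hm0 : ∀ z ∈ Q, 0 ≤ m z) (hM : ∀ z ∈ Q, m z ≤ M) (t : Finset W)
    (ht : ∀ z ∈ Q, ∃ ζ ∈ t, ‖φ z - ζ‖ ≤ ε₁) :
    |∫ z in Q, ⟪u z, φ z⟫_ℝ * m z| ≤
      M * ((t.card : ℝ) * (η₂ / 2) * (volume Q).toReal +
        (∑ ζ ∈ t, (∫ z in Q, ⟪u z, ζ⟫_ℝ ^ 2) / (2 * η₂)) +
        ε₁ / 2 * ((volume Q).toReal + ∫ z in Q, ‖u z‖ ^ 2)) := by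
  have k3 : Integrable (fun _ : Cm n => (1 : ℝ)) (volume.restrict Q) := integrableOn_const hQt
  have k4 : Integrable (fun _ : Cm n => η₂ / 2) (volume.restrict Q) := integrableOn_const hQt
  have k6 : ∀ ζ, Integrable (fun z => ⟪u z, ζ⟫_ℝ ^ 2 / (2 * η₂)) (volume.restrict Q) := fun ζ =>
    (i4 ζ).div_const _
  have k1 : ∀ ζ ∈ t, Integrable (fun z => η₂ / 2 + ⟪u z, ζ⟫_ℝ ^ 2 / (2 * η₂))
      (volume.restrict Q) := fun ζ _ => k4.add (k6 ζ)
  have k7 : Integrable (fun z => 1 + ‖u z‖ ^ 2) (volume.restrict Q) := k3.add i3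
  have k2 : Integrable (fun z => ε₁ / 2 * (1 + ‖u z‖ ^ 2)) (volume.restrict Q) := k7.const_mul _
  have k8 : Integrable (fun z => ∑ ζ ∈ t, (η₂ / 2 + ⟪u z, ζ⟫_ℝ ^ 2 / (2 * η₂)))
      (volume.restrict Q) := integrable_finsetSum _ k1
  have hint : Integrable (fun z => M * ((∑ ζ ∈ t, (η₂ / 2 + ⟪u z, ζ⟫_ℝ ^ 2 / (2 * η₂))) +
      ε₁ / 2 * (1 + ‖u z‖ ^ 2))) (volume.restrict Q) := (k8.add k2).const_mul _
  calc |∫ z in Q, ⟪u z, φ z⟫_ℝ * m z| ≤ ∫ z in Q, |⟪u z, φ z⟫_ℝ * m z| :=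
        abs_integral_le_integral_abs
    _ ≤ ∫ z in Q, M * ((∑ ζ ∈ t, (η₂ / 2 + ⟪u z, ζ⟫_ℝ ^ 2 / (2 * η₂))) +
          ε₁ / 2 * (1 + ‖u z‖ ^ 2)) := by
        refine setIntegral_mono_on i1.abs hint hQm fun z hz => ?_
        have h0 : 0 ≤ m z := hm0 z hz
        have h3 : m z ≤ M := hM z hz
        rw [abs_mul, abs_of_nonneg h0]
        obtain ⟨ζ, hζt, e3⟩ := ht z hz
        have h4 : |⟪u z, φ z⟫_ℝ| ≤ |⟪u z, ζ⟫_ℝ| + ‖u z‖ * ε₁ := by
          have e1 : ⟪u z, φ z⟫_ℝ = ⟪u z, ζ⟫_ℝ + ⟪u z, φ z - ζ⟫_ℝ := by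
            rw [← inner_add_right, add_sub_cancel]
          rw [e1]
          refine (abs_add_le _ _).trans ?_
          have e2 := abs_real_inner_le_norm (u z) (φ z - ζ)
          have e4 : ‖u z‖ * ‖φ z - ζ‖ ≤ ‖u z‖ * ε₁ :=
            mul_le_mul_of_nonneg_left e3 (norm_nonneg _)
          linarith
        have h5 : |⟪u z, ζ⟫_ℝ| ≤ η₂ / 2 + ⟪u z, ζ⟫_ℝ ^ 2 / (2 * η₂) := by
          have e1 : 0 ≤ (η₂ - |⟪u z, ζ⟫_ℝ|) ^ 2 / (2 * η₂) := by positivity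
          have e2 : (η₂ - |⟪u z, ζ⟫_ℝ|) ^ 2 / (2 * η₂) =
              η₂ / 2 - |⟪u z, ζ⟫_ℝ| + ⟪u z, ζ⟫_ℝ ^ 2 / (2 * η₂) := by
            rw [← sq_abs ⟪u z, ζ⟫_ℝ]
            field_simp
            ring
          linarith
        have h6 : η₂ / 2 + ⟪u z, ζ⟫_ℝ ^ 2 / (2 * η₂) ≤
            ∑ ζ ∈ t, (η₂ / 2 + ⟪u z, ζ⟫_ℝ ^ 2 / (2 * η₂)) :=
          Finset.single_le_sum (f := fun ζ => η₂ / 2 + ⟪u z, ζ⟫_ℝ ^ 2 / (2 * η₂))
            (fun _ _ => by positivity) hζt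
        have h7 : ‖u z‖ * ε₁ ≤ ε₁ / 2 * (1 + ‖u z‖ ^ 2) := by
          nlinarith [mul_nonneg hε₁0.le (sq_nonneg (‖u z‖ - 1))]
        calc |⟪u z, φ z⟫_ℝ| * m z ≤ |⟪u z, φ z⟫_ℝ| * M :=
              mul_le_mul_of_nonneg_left h3 (abs_nonneg _)
          _ = M * |⟪u z, φ z⟫_ℝ| := mul_comm _ _
          _ ≤ _ := mul_le_mul_of_nonneg_left (by linarith) hM0
    _ = _ := by
        have k5 : ∀ ζ ∈ t, ∫ z in Q, (η₂ / 2 + ⟪u z, ζ⟫_ℝ ^ 2 / (2 * η₂)) =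
            η₂ / 2 * (volume Q).toReal + (∫ z in Q, ⟪u z, ζ⟫_ℝ ^ 2) / (2 * η₂) := by
          intro ζ _
          have e1 := integral_add k4 (k6 ζ)
          have e2 := integral_div (μ := volume.restrict Q) (2 * η₂) (fun z => ⟪u z, ζ⟫_ℝ ^ 2)
          rw [e1, e2, setIntegral_const]
          simp only [smul_eq_mul, Measure.real]
          ring
        have k9 := integral_add k8 k2
        have k10 := integral_finsetSum t k1
        have k11 := integral_add k3 i3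
        rw [integral_const_mul, k9, k10, integral_const_mul, k11, Finset.sum_congr rfl k5,
          Finset.sum_add_distrib, Finset.sum_const, setIntegral_const]
        simp only [smul_eq_mul, Measure.real, nsmul_eq_mul]
        ring

theorem weak_of {V K₀ : Set (Cm n)} (hV : MeasurableSet V) (hK₀ : IsCompact K₀) (hVK : V ⊆ K₀)
    {m : ℕ → Cm n → ℝ} {u : ℕ → Cm n → W} {φ : Cm n → W} {M B : ℝ}
    (hm : ∀ j, ContinuousOn (m j) K₀) (hu : ∀ j, ContinuousOn (u j) K₀) (hφ : ContinuousOn φ K₀)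
    (hm0 : ∀ j, ∀ z ∈ V, 0 ≤ m j z) (hM : ∀ j, ∀ z ∈ V, m j z ≤ M)
    (hB : ∀ j, ∫ z in V, ‖u j z‖ ^ 2 * m j z ≤ B)
    (hloc : ∀ δ : ℝ, 0 < δ → ∃ Q, IsCompact Q ∧ Q ⊆ V ∧ volume (V \ Q) ≤ ENNReal.ofReal δ ∧
      (∃ c : ℝ, 0 < c ∧ ∀ j, ∀ z ∈ Q, c ≤ m j z) ∧
      ∀ ζ : W, Tendsto (fun j => ∫ z in Q, ⟪u j z, ζ⟫_ℝ ^ 2) atTop (𝓝 0)) :
    Tendsto (fun j => ∫ z in V, ⟪u j z, φ z⟫_ℝ * m j z) atTop (𝓝 0) := by
  classical
  rcases V.eq_empty_or_nonempty with rfl | ⟨z₀, hz₀⟩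
  · simp
  obtain ⟨A, hA⟩ := hK₀.exists_bound_of_continuousOn hφ
  have hA0 : 0 ≤ A := (norm_nonneg _).trans (hA _ (hVK hz₀))
  have hM0 : 0 ≤ M := (hm0 0 _ hz₀).trans (hM 0 _ hz₀)
  have hB0 : 0 ≤ B := (setIntegral_nonneg hV fun z hz =>
    mul_nonneg (sq_nonneg _) (hm0 0 z hz)).trans (hB 0)
  have hVt : volume V ≠ ⊤ := ((measure_mono hVK).trans_lt hK₀.measure_lt_top).ne
  set v : ℝ := (volume V).toReal with hv
  have hv0 : 0 ≤ v := ENNReal.toReal_nonneg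
  have iK : ∀ {f : Cm n → ℝ}, ContinuousOn f K₀ → IntegrableOn f V := fun hf =>
    (hf.integrableOn_compact hK₀).mono_set hVK
  have i1 : ∀ j, IntegrableOn (fun z => ⟪u j z, φ z⟫_ℝ * m j z) V := fun j =>
    iK (((hu j).inner (𝕜 := ℝ) hφ).mul (hm j))
  have i2 : ∀ j, IntegrableOn (fun z => ‖u j z‖ ^ 2 * m j z) V := fun j =>
    iK (((hu j).norm.pow 2).mul (hm j))
  have i3 : ∀ j, IntegrableOn (fun z => ‖u j z‖ ^ 2) V := fun j => iK ((hu j).norm.pow 2)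
  have i4 : ∀ j (ζ : W), IntegrableOn (fun z => ⟪u j z, ζ⟫_ℝ ^ 2) V := fun j ζ =>
    iK (((hu j).inner (𝕜 := ℝ) continuousOn_const).pow 2)
  rw [Metric.tendsto_atTop]
  intro ε hε
  set η : ℝ := ε / (4 * (B + 1)) with hη
  have hη0 : 0 < η := by positivity
  set δ : ℝ := ε / (4 * (A ^ 2 * M / η + 1)) with hδ
  have hδ0 : 0 < δ := by positivity
  obtain ⟨Q, hQ, hQV, hQd, ⟨c, hc, hcQ⟩, hQl⟩ := hloc δ hδ0
  have hQm : MeasurableSet Q := hQ.measurableSet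
  have hQt : volume Q ≠ ⊤ := hQ.measure_lt_top.ne
  have hQv' : (volume Q).toReal ≤ v := ENNReal.toReal_mono hVt (measure_mono hQV)
  have hDv' : (volume (V \ Q)).toReal ≤ δ := by
    have := ENNReal.toReal_mono ENNReal.ofReal_ne_top hQd
    rwa [ENNReal.toReal_ofReal hδ0.le] at this
  set ε₁ : ℝ := ε / (4 * (M * (v + B / c) + 1)) with hε₁
  have hε₁0 : 0 < ε₁ := by positivity
  -- finitely many vectors
  have hφQ : IsCompact (φ '' Q) := hQ.image_of_continuousOn (hφ.mono (hQV.trans hVK))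
  obtain ⟨t, ht⟩ := hφQ.elim_finite_subcover (fun ζ : W => ball ζ ε₁) (fun _ => isOpen_ball)
    (fun ζ _ => mem_iUnion.2 ⟨ζ, mem_ball_self hε₁0⟩)
  set N : ℝ := (t.card : ℝ) with hN
  have hN0 : 0 ≤ N := by positivity
  set η₂ : ℝ := ε / (4 * (M * N * v + 1)) with hη₂
  have hη₂0 : 0 < η₂ := by positivity
  have hsum : Tendsto (fun j => M * ∑ ζ ∈ t, (∫ z in Q, ⟪u j z, ζ⟫_ℝ ^ 2) / (2 * η₂)) atTop (𝓝 0) := by
    have h1 := tendsto_finsetSum t fun ζ _ => (hQl ζ).div_const (2 * η₂)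
    simp only [zero_div, Finset.sum_const_zero] at h1
    simpa using h1.const_mul M
  obtain ⟨N₁, hN₁⟩ := (Metric.tendsto_atTop.1 hsum) (ε / 4) (by positivity)
  refine ⟨N₁, fun j hj => ?_⟩
  have hNj := hN₁ j hj
  rw [Real.dist_eq, sub_zero] at hNj
  have hNj' := (le_abs_self _).trans hNj.le
  rw [Real.dist_eq, sub_zero]
  have hsplit : ∫ z in V, ⟪u j z, φ z⟫_ℝ * m j z =
      (∫ z in Q, ⟪u j z, φ z⟫_ℝ * m j z) + ∫ z in V \ Q, ⟪u j z, φ z⟫_ℝ * m j z := by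
    rw [← setIntegral_union disjoint_sdiff_self_right (hV.diff hQm) ((i1 j).mono_set hQV)
      ((i1 j).mono_set sdiff_subset), union_sdiff_cancel hQV]
  have hQn : ∫ z in Q, ‖u j z‖ ^ 2 ≤ B / c := by
    rw [le_div_iff₀ hc]
    have h1 : (∫ z in Q, ‖u j z‖ ^ 2) * c ≤ ∫ z in Q, ‖u j z‖ ^ 2 * m j z := by
      rw [← integral_mul_const]
      refine setIntegral_mono_on (((i3 j).mono_set hQV).mul_const _) ((i2 j).mono_set hQV) hQm
        fun z hz => mul_le_mul_of_nonneg_left (hcQ j z hz) (sq_nonneg _)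
    refine h1.trans ((?_ : _ ≤ _).trans (hB j))
    refine setIntegral_mono_set (i2 j) ?_ (LE.le.eventuallyLE hQV)
    filter_upwards [ae_restrict_mem hV] with z hz
    exact mul_nonneg (sq_nonneg _) (hm0 j z hz)
  have b1 := weak_b1 (ε₁ := ε₁) (η₂ := η₂) hQm hQt hM0 hε₁0 hη₂0 ((i1 j).mono_set hQV)
    ((i3 j).mono_set hQV) (fun ζ => (i4 j ζ).mono_set hQV) (fun z hz => hm0 j z (hQV hz))
    (fun z hz => hM j z (hQV hz)) t fun z hz => by
      have h := ht (mem_image_of_mem φ hz)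
      obtain ⟨ζ, hζt, hζ⟩ := mem_iUnion₂.1 h
      exact ⟨ζ, hζt, by rw [← dist_eq_norm]; exact (mem_ball.1 hζ).le⟩
  have b2 := weak_b2 (η := η) (A := A) (M := M) (B := B) (hV.diff hQm)
    ((measure_mono sdiff_subset).trans_lt hVt.lt_top).ne hη0
    ((i1 j).mono_set sdiff_subset) ((i2 j).mono_set sdiff_subset) (fun z hz => hm0 j z hz.1)
    (fun z hz => hM j z hz.1) (fun z hz => hA z (hVK hz.1)) (by
      refine (?_ : _ ≤ _).trans (hB j)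
      refine setIntegral_mono_set (i2 j) ?_ (LE.le.eventuallyLE sdiff_subset)
      filter_upwards [ae_restrict_mem hV] with z hz
      exact mul_nonneg (sq_nonneg _) (hm0 j z hz))
  rw [hsplit]
  refine (abs_add_le _ _).trans_lt ?_
  have c1 : M * (N * (η₂ / 2) * (volume Q).toReal) ≤ ε / 8 := by
    have h1 : M * (N * (η₂ / 2) * (volume Q).toReal) ≤ M * (N * (η₂ / 2) * v) := by gcongr
    refine h1.trans ?_
    have h2 : M * (N * (η₂ / 2) * v) = η₂ * (M * N * v) / 2 := by ring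
    rw [h2]
    have h3 : η₂ * (M * N * v + 1) = ε / 4 := by
      rw [hη₂]; field_simp
    nlinarith
  have c2 : M * (ε₁ / 2 * ((volume Q).toReal + ∫ z in Q, ‖u j z‖ ^ 2)) ≤ ε / 8 := by
    have h1 : M * (ε₁ / 2 * ((volume Q).toReal + ∫ z in Q, ‖u j z‖ ^ 2)) ≤
        M * (ε₁ / 2 * (v + B / c)) := by gcongr
    refine h1.trans ?_
    have h3 : ε₁ * (M * (v + B / c) + 1) = ε / 4 := by
      rw [hε₁]; field_simp
    nlinarith
  have c3 : (η * B + A ^ 2 * M / η * (volume (V \ Q)).toReal) / 2 ≤ ε / 4 := by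
    have h1 : η * (B + 1) = ε / 4 := by rw [hη]; field_simp
    have h2 : δ * (A ^ 2 * M / η + 1) = ε / 4 := by rw [hδ]; field_simp
    have h3 : A ^ 2 * M / η * (volume (V \ Q)).toReal ≤ A ^ 2 * M / η * δ := by gcongr
    nlinarith
  have c4 : M * (N * (η₂ / 2) * (volume Q).toReal + (∑ ζ ∈ t, (∫ z in Q, ⟪u j z, ζ⟫_ℝ ^ 2) / (2 * η₂)) +
        ε₁ / 2 * ((volume Q).toReal + ∫ z in Q, ‖u j z‖ ^ 2)) =
      M * (N * (η₂ / 2) * (volume Q).toReal) +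
        M * ∑ ζ ∈ t, (∫ z in Q, ⟪u j z, ζ⟫_ℝ ^ 2) / (2 * η₂) +
        M * (ε₁ / 2 * ((volume Q).toReal + ∫ z in Q, ‖u j z‖ ^ 2)) := by ring
  linarith

end

end Vale.Agent.P284.H661.T3
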